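import Vale.Agent.P352X.Api1

/-!
# P352L, block Z: the interface of the rows SCH, IB, SW, D1 (no context)
-/

set_option linter.all false

open MeasureTheory Filter Topology
open scoped SchwartzMap ComplexConjugate ENNReal ContDiff

namespace Vale.Agent.P352L.Z

open Vale.Agent.P352 Vale.Agent.P352.GF Vale.Agent.P352.BW Vale.Agent.P352.H246
open Vale.Agent.P352.H496 Vale.Agent.P352.H755 Vale.Agent.P352X
open UniformSpace (Completion)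
open Complex (I)

noncomputable section

variable {D : Type*} [NormedAddCommGroup D] [InnerProductSpace ℂ D]

/-- an isometry (up to a factor) of `L²` of the cone, covariant under the translations, the null
rotations `G_w` and the scalings -/
structure Ell0 (Q : Theory D) (bt : SN.BC (fun p y : V => mdot p y) fun y z => Ut Q y z)
    (S0 : ℝ → Completion D →L[ℂ] Completion D) (ell : (V → ℂ) → Completion D) (c0 : ℝ) :
    Prop where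
  nonneg : 0 ≤ c0
  lin : ∀ ψ ψ' (a : ℂ), MemLp ψ 2 (volume.restrict Fc) → MemLp ψ' 2 (volume.restrict Fc) →
    ell (fun p => ψ p + a * ψ' p) = ell ψ + a • ell ψ'
  inn : ∀ ψ ψ', MemLp ψ 2 (volume.restrict Fc) → MemLp ψ' 2 (volume.restrict Fc) →
    inner ℂ (ell ψ) (ell ψ') = c0 * ∫ p in Fc, conj (ψ p) * ψ' p
  phi : ∀ g ψ, SN.Bd g → MemLp ψ 2 (volume.restrict Fc) →
    bt.Phi g (ell ψ) = ell fun p => g p * ψ p
  perp : ∀ ψ, MemLp ψ 2 (volume.restrict Fc) → inner ℂ (om Q) (ell ψ) = 0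
  ga : ∀ w ψ, MemLp ψ 2 (volume.restrict Fc) → Ga Q w (ell fun p => ψ (gap w p)) = ell ψ
  sc : ∀ r s ψ, 0 < r → 0 < s → MemLp ψ 2 (volume.restrict Fc) →
    Usc Q r s (ell ψ) = ((r * s : ℝ) : ℂ) • ell fun p => ψ (scp s r p)
  s0 : ∀ (t : ℝ) (g g' : 𝓢(P3, ℂ)) (φ : ℝ → ℝ → ℂ), Measurable (Function.uncurry φ) →
    (∀ y : P3, g' y = g (y.1 - t * d2 y.2 y.2, y.2)) →
    MemLp (fun p => ft3 g (pm p) * φ (be p) (mu p)) 2 (volume.restrict Fc) →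
    MemLp (fun p => ft3 g' (pm p) * φ (be p) (mu p)) 2 (volume.restrict Fc) ∧
    S0 t (ell fun p => ft3 g (pm p) * φ (be p) (mu p)) =
      ell fun p => ft3 g' (pm p) * φ (be p) (mu p)

/-- the kinematics of `K = Kt + K0` -/
structure Kn (D : Type*) [NormedAddCommGroup D] [InnerProductSpace ℂ D] where
  Q : Theory D
  SK : ℝ → Completion D →L[ℂ] Completion D
  S0 : ℝ → Completion D →L[ℂ] Completion D
  Sk : ℝ → Completion D →L[ℂ] Completion D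
  bt : SN.BC (fun p y : V => mdot p y) (fun y z => Ut Q y z)
  uni : ∀ s L a, Ug Q s L a ∈ unitary (Completion D →L[ℂ] Completion D)
  scc : ∀ (s : ℝ → ℝ) v, (∀ x, 0 < s x) → Continuous s → Continuous fun x => Usc Q 1 (s x) v
  ugK : UG SK
  ugk : UG Sk
  ugT : ∀ y : V, UG fun t => Ut Q (t • y)
  ugM : ∀ i, UG (Mi Q i)
  comm : ∀ t, SK t = Sk t * S0 t
  ut : ∀ t y, be y = 0 → Ut Q y * Sk t = Sk t * Ut Q y
  ga : ∀ t w, Ga Q w * Sk t = Sk t * Ga Q w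
  sc : ∀ r s t, 0 < r → 0 < s → Usc Q r s * Sk t = Sk (t / s) * Usc Q r s
  lip : ∀ z w t, 0 ≤ t → Gn Sk z w → ‖Sk t z - z‖ ^ 2 ≤ 2 * t * (inner ℂ z w).re
  dom : ∀ z, Dm SK z ↔ Dm Sk z ∧ Dm S0 z
  split : ∀ z, Dm SK z → gen SK z = gen Sk z + gen S0 z ∧ ‖gen Sk z‖ ≤ ‖gen SK z‖
  k0 : ∀ ψ ψ', (∀ i, Dm (Mi Q i) ψ ∧ Dm (Mi Q i) (gen (Mi Q i) ψ)) →
    inner ℂ (om Q) ψ' = 0 → Gn (Pa Q) ψ' (∑ i, gen (Mi Q i) (gen (Mi Q i) ψ)) → Gn S0 ψ ψ'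

/-- `Ell0` for the data of `c` -/
abbrev El (c : Kn D) (ell : (V → ℂ) → Completion D) (c0 : ℝ) : Prop := Ell0 c.Q c.bt c.S0 ell c0

/-- `-3 ell (μ f^)` -/
def Thv (ell : (V → ℂ) → Completion D) (f : Fn) : Completion D :=
  (-3 : ℂ) • ell fun p => (mu p : ℝ) * ft f p

/-- the second derivative along `a` -/
abbrev daa (F : Fn) : Fn := dv va (dv va F)

/-- the plane form of the weight `(x - x_A).(x - x_B)` between the legs `X fA` (above) and `X fB`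
(below) -/
def PFg (Q : Theory D) (SK : ℝ → Completion D →L[ℂ] Completion D) (X : Fn → Completion D)
    (fA fB : Fn) : ℂ :=
  inner ℂ (X (bar fA)) (gen SK (X fB)) -
    ∑ i, (inner ℂ (X (bar fun z => (tx z i : ℝ) * fA z)) (gen (Mi Q i) (X fB)) +
      inner ℂ (X (bar fA)) (gen (Mi Q i) (X fun z => (tx z i : ℝ) * fB z))) +
    ∑ i, inner ℂ (X (bar fun z => (tx z i : ℝ) * fA z))
      (gen (Pa Q) (X fun z => (tx z i : ℝ) * fB z))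

/-- the coefficients of `(x - y) ^ 6` -/
def c6 (j : Fin 7) : ℝ := ![1, -6, 15, -20, 15, -6, 1] j

/-- the four faces for the weight `(al1 - al3) ^ 6` and a plane form `P` -/
def Faces6 (P : Fn → Fn → ℂ) (ρ1 κ3 : P3 → ℝ) (θ : ℝ → ℝ) (ε δ : ℝ) : ℂ := ∑ j : Fin 7, (c6 j : ℂ) *
  (P (pr (ap (6 - j) ρ1) (dil ε (chp θ))) (pr (ap j κ3) (blw (dil ε θ) θ δ)) +
    P (pr (ap j κ3) (abv (dil ε θ) θ δ)) (pr (ap (6 - j) ρ1) (dil ε (chm θ))) +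
    P (pr (ap (6 - j) ρ1) (abv (dil ε θ) θ δ)) (pr (ap j κ3) (dil ε (chm θ))) +
    P (pr (ap j κ3) (dil ε (chp θ))) (pr (ap (6 - j) ρ1) (blw (dil ε θ) θ δ)))

/-- the faces tend to zero -/
def FZ (P : Fn → Fn → ℂ) : Prop := ∀ θ, Bump θ → ∃ ρ1 κ3 : P3 → ℝ, Tst ρ1 ∧ Tst κ3 ∧
  (∀ y ∈ tsupport ρ1, κ3 y = 1) ∧ ∫ y, ρ1 y ≠ 0 ∧
  ∀ η > 0, ∀ᶠ ε in 𝓝[>] (0 : ℝ), ∀ᶠ δ in 𝓝[>] (0 : ℝ), ‖Faces6 P ρ1 κ3 θ ε δ‖ ≤ η

/-- the form domain of `P_b` -/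
def Fd (c : Kn D) (w : Completion D) : Prop :=
  ∫⁻ p, ENNReal.ofReal (1 + |al p|) ∂c.bt.nu w ≠ ⊤

/-- the legs `X F`, `F` in a slab on one side of the plane, are in the domain of `K` -/
structure Slab (c : Kn D) (X : Fn → Completion D) : Prop where
  dm : ∀ b1 b2 : ℝ, (b2 < 0 ∨ 0 < b1) → ∃ (m : ℕ) (C : ℝ), ∀ F : Sch,
    tsupport F ⊆ {z | b1 ≤ be z ∧ be z ≤ b2} →
      Dm c.SK (X (ev F)) ∧ ‖gen c.SK (X (ev F))‖ ≤ C * sn m F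
  fd : ∀ (b1 b2 : ℝ) (F : Sch), b2 < 0 → tsupport F ⊆ {z | b1 ≤ be z ∧ be z ≤ b2} →
    Fd c (gen c.SK (X (ev F)))

/-- the form of `Kt` on the vectors `Tht` -/
structure Schur (c : Kn D) (ell : (V → ℂ) → Completion D) (cc : (ℝ → ℝ) → (ℝ → ℝ) → ℂ)
    (dd : (ℝ → ℝ) → ℝ) : Prop where
  dom : ∀ γ φ, MemLp γ 2 m3 → D0 φ → Dm c.Sk (Tht ell γ φ)
  form : ∀ γ' φ' γ φ, MemLp γ' 2 m3 → D0 φ' → MemLp γ 2 m3 → D0 φ →
    inner ℂ (Tht ell γ' φ') (gen c.Sk (Tht ell γ φ)) = cc φ' φ * ∫ k, conj (γ' k) * γ k ∂m3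
  nrm : ∀ γ φ, MemLp γ 2 m3 → D0 φ →
    ‖gen c.Sk (Tht ell γ φ)‖ ^ 2 = dd φ * ∫ k, ‖γ k‖ ^ 2 ∂m3
  scc : ∀ φ' φ s, D0 φ' → D0 φ → 0 < s → cc (dil s φ') (dil s φ) = cc φ' φ
  sdd : ∀ φ s, D0 φ → 0 < s → dd (dil s φ) = s * dd φ
  cont : ∀ φ' φ, D0 φ' → D0 φ → ContinuousOn (fun s => cc (dil s φ') φ) (Set.Ioi 0)
  int : ∀ φ' φ, D0 φ' → D0 φ →
    IntegrableOn (fun s : ℝ => cc (dil s φ') φ / s) (Set.Ioi 0)

end

end Vale.Agent.P352L.Z
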