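import Vale.Agent.P352L.Z.El

/-!
# P352L, block Z: the distribution `f ↦ ell (ft f)`, the form domain of `P_b`
-/

set_option linter.all false

open MeasureTheory Filter Topology Set
open scoped SchwartzMap ComplexConjugate ENNReal ContDiff

namespace Vale.Agent.P352L.Z

open Vale.Agent.P352 Vale.Agent.P352.GF Vale.Agent.P352.BW Vale.Agent.P352.H246
open Vale.Agent.P352.H496 Vale.Agent.P352.H755 Vale.Agent.P352X
open UniformSpace (Completion)
open Complex (I)
open Th (mF)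

noncomputable section

variable {D : Type*} [NormedAddCommGroup D] [InnerProductSpace ℂ D] {c : Kn D}
  {ell : (V → ℂ) → Completion D} {c0 : ℝ}

section ell

variable (h : El c ell c0) {f g : Fn}
include h

lemma lt_add (hf : IsTest f) (hg : IsTest g) :
    ell (ft fun z => f z + g z) = ell (ft f) + ell (ft g) := by
  rw [← ell_add h (memLp_ft hf _) (memLp_ft hg _)]
  exact congrArg ell (funext (ft_add hf hg))

lemma lt_smul (a : ℂ) (hf : IsTest f) : ell (ft fun z => a * f z) = a • ell (ft f) := by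
  rw [← ell_smul h a (memLp_ft hf _)]
  exact congrArg ell (funext (ft_mul a f))

lemma lt_le : ∃ (m : ℕ) (C : ℝ), ∀ f : Sch, ‖ell (ft (ev f))‖ ≤ C * sn m f := by
  obtain ⟨m, C, C0, hC⟩ := ft_decay 3
  have w0 : ∀ p, 0 ≤ Sch.wG p := fun p => by unfold Sch.wG; positivity
  have i : Integrable (fun p => Sch.wG p ^ 2) mF :=
    (memLp_two_iff_integrable_sq Sch.wG_l2.1).1 Sch.wG_l2
  refine ⟨m, √(c0 * ∫ p, Sch.wG p ^ 2 ∂mF) * C, fun f => ?_⟩
  have s0 := Lie.sn_nonneg m f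
  rw [mul_assoc]
  refine (abs_le_of_sq_le_sq' ?_ (by positivity)).2
  rw [ell_sq h (memLp_ft ⟨f, rfl⟩ _), mul_pow, Real.sq_sqrt (mul_nonneg h.nonneg
    (integral_nonneg fun _ => sq_nonneg _)), mul_assoc, ← integral_mul_const]
  refine mul_le_mul_of_nonneg_left (integral_mono_of_nonneg (.of_forall fun _ => sq_nonneg _)
    (i.mul_const _) (.of_forall fun p => ?_)) h.nonneg
  beta_reduce
  rw [← mul_pow]
  refine pow_le_pow_left₀ (norm_nonneg _) ?_ 2
  have h1 : 0 < 1 + ‖p‖ := by positivity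
  rw [Sch.wG, Real.rpow_neg h1.le, le_inv_mul_iff₀ (by positivity),
    show (3 : ℝ) = (3 : ℕ) by norm_num, Real.rpow_natCast]
  exact hC f p

/-- `f ↦ ell (ft f)` -/
def ltC : Sch →L[ℂ] Completion D :=
  let L : Sch →ₗ[ℂ] Completion D :=
    { toFun := fun f => ell (ft (ev f))
      map_add' := fun f g => lt_add h ⟨f, rfl⟩ ⟨g, rfl⟩
      map_smul' := fun a f => lt_smul h a ⟨f, rfl⟩ }
  ⟨L, continuous_of_continuousAt_zero L (by
    obtain ⟨m, C, hC⟩ := lt_le h
    rw [ContinuousAt, map_zero]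
    refine squeeze_zero_norm hC ?_
    simpa only [Api4.sn_eq, map_zero, mul_zero] using
      ((ST.continuous_sn (E := V) (F := ℂ) m).tendsto 0).const_mul C)⟩

lemma ltC_apply (f : Sch) : ltC h f = ell (ft (ev f)) := rfl

lemma ltC_sch (hf : IsTest f) : ltC h (sch f) = ell (ft f) := by rw [ltC_apply, Ap.ev_sch hf]

lemma lt_perp (hf : IsTest f) : inner ℂ (om c.Q) (ell (ft f)) = 0 := h.perp _ (memLp_ft hf _)

lemma ut_lt (y : V) (hf : IsTest f) : Ut c.Q y (ell (ft fun x => f (x + y))) = ell (ft f) := by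
  rw [← c.bt.Phi_ch, h.phi _ _ (SN.isPair_mdot.bd y) (memLp_ft (test_tsl hf y) _)]
  congr 1
  funext p
  rw [ft_tsl, SN.ch, ← mul_assoc (Complex.exp _), ← Complex.exp_add, add_neg_cancel,
    Complex.exp_zero, one_mul]

lemma utl (y : V) (hf : IsTest f) :
    Gn (fun t => Ut c.Q (t • y)) (ell (ft f)) (I • ell (ft (dv y f))) := by
  rw [← ltC_sch h hf, ← ltC_sch h (Ap.test_dv y hf)]
  refine gn_of_cov (c.ugT y) _ (Ft := fun t => sch fun x => f (x + t • y))
    (lie_row.der V (fun _ => 1) (fun t => t • y) 0 y _ _ _ (hasDerivAt_const _ _)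
      (by simpa using (hasDerivAt_id (0 : ℝ)).smul_const y) rfl (zero_smul _ _)
      (.of_forall fun t x => ?_) fun x => ?_) fun t => ?_
  · rw [Ap.sch_apply (test_tsl hf _), Ap.sch_apply hf]
    rfl
  · rw [Ap.sch_apply (Ap.test_dv y hf), Ap.coe_sch hf, Ap.dv_eq (Ap.sw_diff hf x)]
    simp
  · rw [ltC_sch h (test_tsl hf _), ltC_sch h hf, ut_lt h _ hf]

lemma thv_eq (hf : IsTest f) : Thv ell f = (3 : ℂ) • ell (ft (box f)) := by
  rw [Thv, show ft (box f) = fun p => -1 * ((mu p : ℝ) * ft f p) from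
    funext fun p => by rw [ft_box hf]; ring, ell_smul h _ (memLp_mu_ft hf _), smul_smul]
  norm_num

end ell

variable {v w : Completion D}

lemma fd_iff : Fd c v ↔ c.bt.Dom (fun p => ((√(1 + |al p|) : ℝ) : ℂ)) v := by
  rw [SN.Calc.dom_iff_lintegral (by fun_prop), Fd, lt_top_iff_ne_top]
  simp only [Complex.norm_real, Real.norm_eq_abs, sq_abs,
    fun p => Real.sq_sqrt (show 0 ≤ 1 + |al p| by positivity)]

lemma Fd.add (hv : Fd c v) (hw : Fd c w) : Fd c (v + w) :=
  fd_iff.2 ((fd_iff.1 hv).add_vec (fd_iff.1 hw))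

lemma Fd.smul (a : ℂ) (hv : Fd c v) : Fd c (a • v) := fd_iff.2 ((fd_iff.1 hv).smul_vec a)

lemma Fd.sub (hv : Fd c v) (hw : Fd c w) : Fd c (v - w) :=
  fd_iff.2 ((fd_iff.1 hv).sub_vec (fd_iff.1 hw))

end

end Vale.Agent.P352L.Z
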