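import Vale.Agent.P352L.Z.Ell0
import Vale.Agent.P352X.R.SCH.Dom
import Vale.Agent.P352X.R.IB
import Vale.Agent.P352X.R.LIE

/-!
# P352L, block Z: toolbox for `ell` and `Thv`
-/

set_option linter.all false

open MeasureTheory Filter Topology Set
open scoped SchwartzMap ComplexConjugate ENNReal ContDiff

namespace Vale.Agent.P352L.Z

open Vale.Agent.P352 Vale.Agent.P352.GF Vale.Agent.P352.BW Vale.Agent.P352.H246
open Vale.Agent.P352.H496 Vale.Agent.P352.H755 Vale.Agent.P352X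
open UniformSpace (Completion)
open Complex (I)
open Th (tc mF mP sq_int mem_prod int_prod_sq)

noncomputable section

variable {D : Type*} [NormedAddCommGroup D] [InnerProductSpace ℂ D] {c : Kn D}
  {ell : (V → ℂ) → Completion D} {c0 : ℝ}

namespace Kn

variable (c)

lemma ug_norm (s L a) (v : Completion D) : ‖Ug c.Q s L a v‖ = ‖v‖ :=
  ContinuousLinearMap.norm_map_of_mem_unitary (c.uni s L a) v

lemma usc_norm (r s : ℝ) (v : Completion D) : ‖Usc c.Q r s v‖ = ‖v‖ := c.ug_norm _ _ _ v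

lemma ugPa : UG (Pa c.Q) := c.ugT va

end Kn

section ell

variable (h : El c ell c0) {ψ ψ' : V → ℂ}
include h

lemma ell_sq (hψ : MemLp ψ 2 mF) : ‖ell ψ‖ ^ 2 = c0 * ∫ p, ‖ψ p‖ ^ 2 ∂mF := by
  have e := h.inn ψ ψ hψ hψ
  simp only [inner_self_eq_norm_sq_to_K, Complex.conj_mul'] at e
  rw [← Complex.ofReal_inj]
  push_cast
  rw [← integral_complex_ofReal]
  push_cast
  exact e

lemma ell_sub (hψ : MemLp ψ 2 mF) (hψ' : MemLp ψ' 2 mF) :
    ell (fun p => ψ p - ψ' p) = ell ψ - ell ψ' := by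
  simpa only [neg_one_mul, neg_one_smul, ← sub_eq_add_neg] using h.lin ψ ψ' (-1) hψ hψ'

lemma ell_add (hψ : MemLp ψ 2 mF) (hψ' : MemLp ψ' 2 mF) :
    ell (fun p => ψ p + ψ' p) = ell ψ + ell ψ' := by
  simpa only [one_mul, one_smul] using h.lin ψ ψ' 1 hψ hψ'

lemma ell_zero : ell (fun _ => 0) = 0 := by
  simpa using ell_sub h (ψ := fun _ => 0) (ψ' := fun _ => 0) MemLp.zero MemLp.zero

lemma ell_smul (a : ℂ) (hψ : MemLp ψ 2 mF) : ell (fun p => a * ψ p) = a • ell ψ := by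
  simpa only [zero_add, ell_zero h] using h.lin (fun _ => 0) ψ a MemLp.zero hψ

lemma ell_congr (hψ : MemLp ψ 2 mF) (e : ψ =ᵐ[mF] ψ') : ell ψ = ell ψ' := by
  have hψ' := hψ.ae_eq e
  rw [← sub_eq_zero, ← ell_sub h hψ hψ', ← norm_eq_zero, ← sq_eq_zero_iff,
    ell_sq h (ψ := fun p => ψ p - ψ' p) (hψ.sub hψ'), integral_congr_ae (g := fun _ => 0),
    integral_zero, mul_zero]
  filter_upwards [e] with p hp
  simp [hp]

lemma ell_congr' (hψ : MemLp ψ 2 mF) (e : ∀ p ∈ Fc, ψ p = ψ' p) : ell ψ = ell ψ' :=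
  ell_congr h hψ (by filter_upwards [ae_restrict_mem meas_Fc] using e)

lemma ell_prod {g : P3 → ℂ} {G : ℝ → ℂ} (hg : MemLp g 2 mP) (hG : MemLp G 2 Th.mI) :
    ‖ell fun p => g (pm p) * G (tc p)‖ ^ 2 = c0 * ((∫ k, ‖g k‖ ^ 2 ∂mP) * ∫ t, ‖G t‖ ^ 2 ∂Th.mI) := by
  rw [ell_sq h (mem_prod hg hG), int_prod_sq hg.1 hG.1]

variable {f g : Fn}

lemma th_add (hf : IsTest f) (hg : IsTest g) :
    Thv ell (fun z => f z + g z) = Thv ell f + Thv ell g := by
  rw [Thv, Thv, Thv, ← smul_add, ← ell_add h (memLp_mu_ft hf _) (memLp_mu_ft hg _)]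
  simp only [ft_add hf hg, mul_add]

lemma th_smul (a : ℂ) (hf : IsTest f) : Thv ell (fun z => a * f z) = a • Thv ell f := by
  rw [Thv, Thv, smul_comm a, ← ell_smul h a (memLp_mu_ft hf _)]
  simp only [ft_mul, mul_left_comm a]

lemma th_le : ∃ (m : ℕ) (C : ℝ), ∀ f : Sch, ‖Thv ell (ev f)‖ ≤ C * sn m f := by
  obtain ⟨m, C, C0, hC⟩ := Sch.mu_ft_le
  have w0 : ∀ p, 0 ≤ Sch.wG p := fun p => by unfold Sch.wG; positivity
  have i : Integrable (fun p => Sch.wG p ^ 2) mF :=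
    (memLp_two_iff_integrable_sq Sch.wG_l2.1).1 Sch.wG_l2
  refine ⟨m, 3 * (√(c0 * ∫ p, Sch.wG p ^ 2 ∂mF) * C), fun f => ?_⟩
  have s0 := Lie.sn_nonneg m f
  rw [Thv, norm_smul, norm_neg, Complex.norm_ofNat, mul_assoc, mul_assoc]
  refine mul_le_mul_of_nonneg_left (abs_le_of_sq_le_sq' ?_ (by positivity)).2 (by norm_num)
  rw [ell_sq h (memLp_mu_ft ⟨f, rfl⟩ _), mul_pow, Real.sq_sqrt (mul_nonneg h.nonneg
    (integral_nonneg fun _ => sq_nonneg _)), mul_assoc, ← integral_mul_const]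
  refine mul_le_mul_of_nonneg_left (integral_mono_of_nonneg (.of_forall fun _ => sq_nonneg _)
    (i.mul_const _) (.of_forall fun p => ?_)) h.nonneg
  beta_reduce
  rw [← mul_pow, mul_comm (Sch.wG p)]
  exact pow_le_pow_left₀ (norm_nonneg _) (hC f p) 2

/-- `f ↦ Thv f` -/
def thC : Sch →L[ℂ] Completion D :=
  let L : Sch →ₗ[ℂ] Completion D :=
    { toFun := fun f => Thv ell (ev f)
      map_add' := fun f g => th_add h ⟨f, rfl⟩ ⟨g, rfl⟩
      map_smul' := fun a f => th_smul h a ⟨f, rfl⟩ }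
  ⟨L, continuous_of_continuousAt_zero L (by
    obtain ⟨m, C, hC⟩ := th_le h
    rw [ContinuousAt, map_zero]
    refine squeeze_zero_norm hC ?_
    simpa only [Api4.sn_eq, map_zero, mul_zero] using
      ((ST.continuous_sn (E := V) (F := ℂ) m).tendsto 0).const_mul C)⟩

lemma thC_apply (f : Sch) : thC h f = Thv ell (ev f) := rfl

lemma thC_sch (hf : IsTest f) : thC h (sch f) = Thv ell f := by rw [thC_apply, Ap.ev_sch hf]

lemma th_perp (hf : IsTest f) : inner ℂ (om c.Q) (Thv ell f) = 0 := by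
  rw [Thv, inner_smul_right, h.perp _ (memLp_mu_ft hf _), mul_zero]

lemma ut_th (y : V) (hf : IsTest f) : Ut c.Q y (Thv ell fun x => f (x + y)) = Thv ell f := by
  rw [Thv, Thv, map_smul, ← c.bt.Phi_ch, h.phi _ _ (SN.isPair_mdot.bd y)
    (memLp_mu_ft (test_tsl hf y) _)]
  congr 2
  funext p
  rw [ft_tsl, SN.ch, mul_left_comm, ← mul_assoc (Complex.exp _), ← Complex.exp_add, add_neg_cancel,
    Complex.exp_zero, one_mul]

lemma ga_th (w : R2) (hf : IsTest f) : Ga c.Q w (Thv ell fun x => f (gap w x)) = Thv ell f := by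
  rw [Thv, Thv, map_smul, ← h.ga w _ (memLp_mu_ft hf _)]
  simp only [ft_gap, mu, md_gap]

lemma sc_th {r s : ℝ} (hr : 0 < r) (hs : 0 < s) (hf : IsTest f) :
    Usc c.Q r s (Thv ell fun x => f (scp r s x)) = Thv ell f := by
  have m := memLp_mu_ft (test_conf (conf_scp hr hs) hf) Fc
  rw [Thv, Thv, map_smul, h.sc r s _ hr hs m, ← ell_smul h _ ((scF_scp hs hr).memLp.2 m)]
  congr 2
  funext p
  have e : scp s⁻¹ r⁻¹ (scp s r p) = p := null_ext (by simp [hs.ne']) (by simp [hr.ne']) (by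
    rw [tx_scp, tx_scp, smul_smul, ← Real.sqrt_mul (by positivity), ← mul_inv,
      inv_mul_cancel₀ (by positivity), Real.sqrt_one, one_smul])
  rw [ft_scp hr hs, e, (conf_scp hs hr).mu_map]
  have := Complex.ofReal_ne_zero.2 hr.ne'
  have := Complex.ofReal_ne_zero.2 hs.ne'
  push_cast
  field_simp

omit h in
/-- generators on covariant distributions -/
lemma gn_of_cov {W : ℝ → Completion D →L[ℂ] Completion D} (g : UG W) (Λ : Sch →L[ℂ] Completion D)
    {F F' : Sch} {Ft : ℝ → Sch}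
    (hd : Tendsto (fun t : ℝ => t⁻¹ • (Ft t - F)) (𝓝[≠] 0) (𝓝 F'))
    (hc : ∀ t, W t (Λ (Ft t)) = Λ F) : Gn W (Λ F) (I • Λ F') := by
  refine g.gn_of_slope le_rfl ?_
  rw [smul_smul, Complex.I_mul_I, neg_one_smul]
  have h1 := (g.tendsto (r := fun t => t) (tendsto_nhdsWithin_of_tendsto_nhds tendsto_id)
    ((Λ.continuous.tendsto _).comp hd)).neg
  rw [g.zero] at h1
  refine h1.congr fun t => ?_
  simp only [Function.comp, ContinuousLinearMap.map_smul_of_tower, map_sub, hc, ← smul_neg, neg_sub]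

lemma uth (y : V) (hf : IsTest f) :
    Gn (fun t => Ut c.Q (t • y)) (Thv ell f) (I • Thv ell (dv y f)) := by
  rw [← thC_sch h hf, ← thC_sch h (Ap.test_dv y hf)]
  refine gn_of_cov (c.ugT y) _ (Ft := fun t => sch fun x => f (x + t • y))
    (lie_row.der V (fun _ => 1) (fun t => t • y) 0 y _ _ _ (hasDerivAt_const _ _)
      (by simpa using (hasDerivAt_id (0 : ℝ)).smul_const y) rfl (zero_smul _ _)
      (.of_forall fun t x => ?_) fun x => ?_) fun t => ?_
  · rw [Ap.sch_apply (test_tsl hf _), Ap.sch_apply hf]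
    rfl
  · rw [Ap.sch_apply (Ap.test_dv y hf), Ap.coe_sch hf, Ap.dv_eq (Ap.sw_diff hf x)]
    simp
  · rw [thC_sch h (test_tsl hf _), thC_sch h hf, ut_th h _ hf]

lemma mith (i : Fin 2) (hf : IsTest f) : Gn (Mi c.Q i) (Thv ell f) (I • Thv ell (Mc i f)) := by
  set A : V →L[ℝ] V := (-mdL (ex i)).smulRight va + beL.smulRight (ex i)
  set B : V →L[ℝ] V := ((1 / 2 : ℝ) • beL).smulRight va
  have e : ∀ (t : ℝ) x, (1 + t • A + t ^ 2 • B : V →L[ℝ] V) x = gap (t • e2 i) x := fun t x =>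
    null_ext (by simp [A, B, md_ex, d2_smul, d2_smul_l]; ring) (by simp [A, B]) (by simp [A, B, smul_smul, mul_comm])
  rw [← thC_sch h hf, ← thC_sch h (Ap.test_Mc i hf)]
  refine gn_of_cov (c.ugM i) _ (Ft := fun t => sch fun x => f (gap (t • e2 i) x))
    (lie_row.der V (fun t => 1 + t • A + t ^ 2 • B) (fun _ => 0) A 0 _ _ _
      (by simpa using ((((hasDerivAt_id (0 : ℝ)).smul_const A).const_add 1).fun_add
        (((hasDerivAt_id (0 : ℝ)).fun_pow 2).smul_const B))) (hasDerivAt_const _ _) (by simp) rfl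
      (.of_forall fun t x => ?_) fun x => ?_) fun t => ?_
  · rw [Ap.sch_apply (test_conf (conf_gap _) hf), Ap.sch_apply hf, add_zero, e]
  · rw [Ap.sch_apply (Ap.test_Mc i hf), Ap.coe_sch hf, Mc, Ap.dv_eq (Ap.sw_diff hf x),
      Ap.dv_eq (Ap.sw_diff hf x)]
    simp [A, md_ex]
  · rw [thC_sch h (test_conf (conf_gap _) hf), thC_sch h hf, Mi, ga_th h _ hf]

end ell

end

end Vale.Agent.P352L.Z
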