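import Vale.Agent.P352L.Z.Dt

/-!
# P352L, block Z: `Kt` on the vectors `Thv (g χ_s)`
-/

set_option linter.all false

open MeasureTheory Filter Topology Set Metric
open scoped SchwartzMap ComplexConjugate ContDiff Real

namespace Vale.Agent.P352L.Z

open Vale.Agent.P352 Vale.Agent.P352.GF Vale.Agent.P352.BW Vale.Agent.P352.H246
open Vale.Agent.P352.H496 Vale.Agent.P352.H755 Vale.Agent.P352X Vale.Agent.P352X.Ib
open UniformSpace (Completion)
open Complex (I exp)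
open Api4 (Fam)

noncomputable section

variable {D : Type*} [NormedAddCommGroup D] [InnerProductSpace ℂ D] {c : Kn D} {f : Fn}
  {g : P3 → ℝ} {χ φ : ℝ → ℝ} {ell : (V → ℂ) → Completion D} {c0 : ℝ}

lemma test_daa (hf : IsTest f) : IsTest (daa f) := Ap.test_dv _ (Ap.test_dv _ hf)

lemma ev_da (F : Sch) : ev (LineDeriv.lineDerivOpCLM ℂ Sch va F) = dv va (ev F) :=
  (dv_test ⟨F, rfl⟩ va).symm

/-- `F ↦ Thv (∂_a ∂_a F)` -/
def wC (h : El c ell c0) : Sch →L[ℂ] Completion D :=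
  thC h ∘L LineDeriv.lineDerivOpCLM ℂ Sch va ∘L LineDeriv.lineDerivOpCLM ℂ Sch va

lemma wC_apply (h : El c ell c0) (F : Sch) : wC h F = Thv ell (daa (ev F)) := by
  rw [wC, ContinuousLinearMap.comp_apply, ContinuousLinearMap.comp_apply, thC_apply, ev_da, ev_da]

lemma wC_sch (h : El c ell c0) (hf : IsTest f) : wC h (sch f) = Thv ell (daa f) := by
  rw [wC_apply, Ap.ev_sch hf]

lemma ut_w (h : El c ell c0) (y : V) (hf : IsTest f) :
    Ut c.Q y (Thv ell (daa fun x => f (x + y))) = Thv ell (daa f) := by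
  rw [← ut_th h y (test_daa hf), daa, funext (Ap.dv_tr y va f), funext (Ap.dv_tr y va _)]

lemma da_scp {s : ℝ} (hf : IsTest f) :
    (dv va fun x => f (scp 1 s x)) = fun x => dv va f (scp 1 s x) := funext fun x => by
  simpa [Br.scp_va] using Ap.dv_aff (scpL 1 s) 0 (x := x) (Ap.sw_diff hf _) va

lemma sc_w (h : El c ell c0) {s : ℝ} (hs : 0 < s) (hf : IsTest f) :
    Usc c.Q 1 s (Thv ell (daa fun x => f (scp 1 s x))) = Thv ell (daa f) := by
  rw [← sc_th h one_pos hs (test_daa hf), daa, da_scp hf, da_scp (Ap.test_dv _ hf)]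

/-- second derivatives along the light ray -/
def D2 (g : P3 → ℝ) : Prop := ∃ g0, Tst g0 ∧ g = dd2 g0

lemma D2.tst (h : D2 g) : Tst g := by
  obtain ⟨g0, h0, rfl⟩ := h
  exact tst_dd2 h0

lemma D2.der (h : D2 g) : ∃ g0, Tst g0 ∧ g = Dx (1, 0) g0 := by
  obtain ⟨g0, h0, rfl⟩ := h
  exact ⟨_, tst_Dx _ h0, rfl⟩

lemma d2_dd2 (hg : Tst g) : D2 (dd2 g) := ⟨g, hg, rfl⟩

lemma dm_pr (K : SlW c ell) (hg : D2 g) (hφ : Sd φ) : Dm c.SK (Thv ell (pr g φ)) := by
  obtain ⟨g, hg, rfl⟩ := hg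
  obtain ⟨h0, b1, b2, h1, h2⟩ := hφ
  obtain ⟨m, C, h⟩ := K.dm b1 b2 h1
  rw [← daa_pr hg h0, ← Ap.ev_sch (test_pr hg h0)]
  refine (h _ ?_).1
  rw [Ap.tsupport_sch (test_pr hg h0)]
  exact fun z hz => h2 (Far.tsupport_pr g φ hz).2

/-- **Cells.** -/
theorem cell0 (he : El c ell c0) (K : SlW c ell) (hg : Tst g) (hχ : Sd χ) : ∃ C : ℝ, 0 ≤ C ∧
    ∀ s, 0 < s → s ≤ 1 → ‖gen c.Sk (Thv ell (daa (pr g (dil s χ))))‖ ≤ C := by
  obtain ⟨h0, b1, b2, h1, h2⟩ := hχ
  obtain ⟨m, C, h⟩ := K.dm b1 b2 h1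
  obtain ⟨ρ, hρ, sρ, -, iρ⟩ := Ap.ex_rho (volume : Measure R2) (closedBall_mem_nhds 0 one_pos)
  obtain ⟨R, hR⟩ := hg.2.isCompact.isBounded.subset_closedBall 0
  have F := fam_cel hg h0 hρ
  obtain ⟨A, hA⟩ := F.bdd ((isCompact_Icc (a := (0 : ℝ)) (b := 1)).prod
    (isCompact_closedBall (0 : R2) (R + 1))) (subset_univ _) m
  set B : R2 → ℝ := (closedBall 0 (R + 1)).indicator fun _ => |C| * |A|
  have iB : Integrable B := (integrableOn_const (measure_closedBall_lt_top).ne).integrable_indicator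
    measurableSet_closedBall
  have B0 : 0 ≤ B := fun y => indicator_nonneg (fun _ _ => by positivity) y
  have key : ∀ q : P3, q.1 ∈ Icc (0 : ℝ) 1 → Dm c.Sk (wC he (sch (cel g χ ρ q))) ∧
      ‖gen c.Sk (wC he (sch (cel g χ ρ q)))‖ ≤ B q.2 := fun q hq => by
    obtain ⟨a, b⟩ := h (sch (cel g χ ρ q)) (by
      rw [Api4.tsupport_sch (F.dc (mem_univ q))]
      refine Ap.tsupp_sub (isClosed_Icc.preimage cont_be) fun z k => h2 (subset_tsupport _ fun j => k ?_)
      simp [cel, j])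
    rw [← wC_apply he] at a b
    refine ⟨((c.dom _).1 a).1, ?_⟩
    by_cases k : q.2 ∈ closedBall 0 (R + 1)
    · refine ((c.split _ a).2.trans b).trans ?_
      rw [show B q.2 = _ from indicator_of_mem k _]
      exact mul_le_mul (le_abs_self _) ((hA q ⟨hq, k⟩).trans (le_abs_self _)) (Lie.sn_nonneg _ _)
        (abs_nonneg _)
    · have : cel g χ ρ q = fun _ => 0 := funext fun z => by_contra fun j => k (by
        simp only [cel, Complex.ofReal_eq_zero, mul_eq_zero, not_or] at j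
        have j1 := (norm_snd_le _).trans (mem_closedBall_zero_iff.1 (hR (subset_tsupport _ j.1.1)))
        have j2 := mem_closedBall_zero_iff.1 (sρ (subset_tsupport _ j.2))
        have j3 := norm_sub_le (q.2 + q.1 • tx z) (q.1 • tx z)
        rw [add_sub_cancel_right, norm_smul, Real.norm_of_nonneg hq.1] at j3
        exact mem_closedBall_zero_iff.2 (j3.trans (add_le_add j1
          (mul_le_one₀ hq.2 (norm_nonneg _) j2))))
      rw [this, Ap.sch_zero, map_zero, gen_zero, norm_zero]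
      exact B0 _
  refine ⟨∫ y, B y, integral_nonneg B0, fun s hs hs1 => ?_⟩
  have l0 := Real.sqrt_pos.2 hs
  have tf := test_pr hg (tst_dil h0 hs)
  have e1 : (fun z => pr g (dil s χ) (scp 1 s z)) =
      fun z => ∫ y : R2, cel g χ ρ (√s, √s • y) (z - tv y) := funext fun z => by
    simp only [cel, al_sub, be_sub, tx_sub, al_tv, be_tv, tx_tv, sub_zero, ← smul_add,
      add_sub_cancel, integral_complex_ofReal, integral_const_mul, integral_sub_left_eq_self ρ, iρ]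
    simp [pr, pl, dil, hs.ne']
  have d : Dc fun q : R2 × V => cel g χ ρ (√s, √s • q.1) (q.2 - tv q.1) := by
    have d1 : Dc fun z => pr g (dil s χ) (scp 1 s z) := Ap.cs_hom (conf_scp one_pos hs).cle.toHomeomorph
      (conf_scp one_pos hs).cle.contDiff (Far.dc_pr hg (tst_dil h0 hs))
    have d2 := Api4.dc_comp_cle (Api4.dc_tens (Api4.dc_cx hρ) d1)
      (ContinuousLinearEquiv.equivOfInverse
        ((txL ∘L .snd ℝ R2 V - .fst ℝ R2 V).prod (.snd ℝ R2 V))
        ((txL ∘L .snd ℝ R2 V - .fst ℝ R2 V).prod (.snd ℝ R2 V)) (fun _ => by simp) fun _ => by simp)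
    convert d2 using 2 with q
    simp [cel, pr, pl, dil, hs.ne', cx, ← smul_add, mul_comm]
  obtain ⟨-, i1, e2⟩ := Api4.par volume d (wC he)
  obtain ⟨a, b⟩ := c.ugk.integral_bdd i1 (iB.comp_smul l0.ne') (.of_forall fun y => by
    have t := Far.isTest_dc (Api4.dc_slice d y)
    obtain ⟨a, b⟩ := key (√s, √s • y) ⟨l0.le, Real.sqrt_le_one.2 hs1⟩
    rw [wC_sch he t, ← ut_w he (tv y) t]
    simp only [add_sub_cancel_right]
    rw [← wC_sch he (Far.isTest_dc (F.dc (mem_univ _)))]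
    obtain ⟨a', b'⟩ := a.comm fun t => c.ut t (tv y) (be_tv y)
    exact ⟨a', by rw [b', Ut, c.ug_norm]; exact b⟩)
  rw [← e2, ← e1, wC_sch he (Ap.test_conf0 (conf_scp one_pos hs) tf)] at a b
  rw [← sc_w he hs tf, (a.gn.scale (Usc c.Q 1 s) s fun t => ?_).gen_eq, norm_smul, Usc,
    c.ug_norm, Real.norm_of_nonneg hs.le]
  · refine (mul_le_mul_of_nonneg_left b hs.le).trans_eq ?_
    rw [Measure.integral_comp_smul]
    simp [Real.sq_sqrt hs.le, abs_of_pos hs, hs.ne']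
  · have := DFunLike.congr_fun (c.sc 1 s (s * t) one_pos hs)
    simp only [mul_div_cancel_left₀ t hs.ne'] at this
    exact (this _).symm

theorem cell (he : El c ell c0) (K : SlW c ell) (hg : D2 g) (hχ : Sd χ) : ∃ C : ℝ, 0 ≤ C ∧
    ∀ s, 0 < s → s ≤ 1 → ‖gen c.Sk (Thv ell (pr g (dil s χ)))‖ ≤ C := by
  obtain ⟨g, hg, rfl⟩ := hg
  obtain ⟨C, h0, h⟩ := cell0 he K hg hχ
  exact ⟨C, h0, fun s hs h1 => daa_pr hg (tst_dil hχ.1 hs) ▸ h s hs h1⟩

end

end Vale.Agent.P352L.Z
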