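import Vale.Agent.P352L.Z.Key

/-!
# P352L, block Z: the trace of the defect of locality on the null plane vanishes
-/

set_option linter.all false

open MeasureTheory Filter Topology Set
open scoped SchwartzMap ComplexConjugate ContDiff

namespace Vale.Agent.P352L.Z

open Vale.Agent.P352 Vale.Agent.P352.GF Vale.Agent.P352.H755 Vale.Agent.P352.H246
  Vale.Agent.P352.H496 Vale.Agent.P352X
open Th Ap Ib D1
open UniformSpace (Completion)
open Complex (I)

noncomputable section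

variable {D : Type*} [NormedAddCommGroup D] [InnerProductSpace ℂ D]

/-- the defect of locality of `L` -/
def bbg (Om : Completion D) (L : Fn → Completion D) (Z : Completion D →L[ℂ] Completion D)
    (f : Fn) : ℂ := inner ℂ (star Z Om) (L f) - inner ℂ (L (bar f)) (Z Om)

/-- row D1 for the potential `L` -/
def D1g (N : Set V → VonNeumannAlgebra (Completion D)) (Om : Completion D)
    (L : Fn → Completion D) : Prop := ∃ (Φ : ℕ → ℝ → ℝ) (C : ℝ), (∀ n, Tst (Φ n) ∧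
    tsupport (Φ n) ⊆ Set.Ioo (-(1 / ((n : ℝ) + 1))) 0 ∧ ∫ t, Φ n t = 1 ∧ ∫ t, |Φ n t| ≤ C) ∧
  Tendsto (fun n => ∫ t, (t * Φ n t) ^ 2) atTop (𝓝 0) ∧
  ∀ r, 0 ≤ r → ∀ Z ∈ (N (Rc r 0)).commutant, ∀ g : P3 → ℂ, Dc g →
    tsupport g ⊆ {y | r * d2 y.2 y.2 < y.1} →
    Tendsto (fun n => bbg Om L Z (dv va (pf g (cx (Φ n))))) atTop (𝓝 0)

variable {c : Kn D} {ell : (V → ℂ) → Completion D} {c0 : ℝ}

/-- **row D1** for `f ↦ ell (ft f)` -/
theorem d1_of (h : El c ell c0) (t : SlW c ell) (hz : FZ (PW c ell))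
    {N : Set V → VonNeumannAlgebra (Completion D)} {Om : Completion D}
    (kb : ∀ r ψ ψ', 0 ≤ r → Pr (N (Rc 0 0)) Om ψ ψ' → Pr (N (Rc r 0)) Om (c.SK r ψ) (c.SK r ψ'))
    (wl : ∀ f, In (Wdg va vb 0) f → Pr (N (Rc 0 0)) Om (ell (ft f)) (ell (ft (bar f)))) :
    D1g N Om fun f => ell (ft f) := by
  refine ⟨Ph, ∫ t, |et t|, fun n => ⟨Ph_tst n, Ph_supp n, Ph_int n, Ph_abs n⟩, Ph_sq,
    fun r hr Z hZ g hg sg => ?_⟩
  have h1 := (tendsto_const_nhds (x := star Z Om)).inner (𝕜 := ℂ) (key h t hz hr hg)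
  have h2 := (key h t hz hr (dc_conj hg)).inner (𝕜 := ℂ) (tendsto_const_nhds (x := Z Om))
  have h3 := h1.sub h2
  rw [inner_zero_right, inner_zero_left, sub_zero] at h3
  refine h3.congr fun n => ?_
  have d := dc_pf (dc_da (dc_sf hg r)) (Ph_tst n)
  have p := kb r _ _ hr (wl _ ⟨dc_sw d, d.2, fun z hz => by
    obtain ⟨a, b⟩ := supp_pf _ _ hz
    have := sg (tsupport_comp_subset_preimage g (sf r).continuous
      (tsupport_fderiv_apply_subset ℝ _ a))
    exact ⟨by simpa [md_va] using (Ph_supp n b).2, by simpa [sf, md_vb] using this⟩⟩) Z hZ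
  rw [bar_pf (dc_sf hg r)] at p
  rw [bbg, dv_pf hg (Ph_tst n), bar_pf hg, inner_sub_right, inner_sub_left, p]
  ring

end

end Vale.Agent.P352L.Z
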