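import Vale.Agent.P352L.Z.Est

/-!
# P352L, block Z: row IB
-/

set_option linter.all false

open MeasureTheory Filter Topology Set
open scoped SchwartzMap ComplexConjugate ContDiff Real

namespace Vale.Agent.P352L.Z

open Vale.Agent.P352 Vale.Agent.P352.GF Vale.Agent.P352.BW Vale.Agent.P352.H246
open Vale.Agent.P352.H496 Vale.Agent.P352.H755 Vale.Agent.P352X Vale.Agent.P352X.Ib
open UniformSpace (Completion)
open Complex (I exp)

noncomputable section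

variable {g g' ρ κ : P3 → ℝ}

lemma Dx_lin (a : ℝ) (hg : Tst g) (hg' : Tst g') :
    Dx (1, 0) (fun y => a * g y + g' y) = fun y => a * Dx (1, 0) g y + Dx (1, 0) g' y :=
  funext fun y => Dx_eq ((Ap.cs_add (Ap.cs_cmul a hg) hg').1.differentiable (by simp))
    (((der_Dx (hg.1.differentiable (by simp)) y).const_mul a).fun_add
      (der_Dx (hg'.1.differentiable (by simp)) y))

lemma Dx_ap' (j : ℕ) (hg : Tst g) :
    Dx (1, 0) (ap j g) = fun y => j * ap (j - 1) g y + ap j (Dx (1, 0) g) y := funext fun y => by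
  rw [Dx_ap j hg, ap, ap, mul_assoc]

lemma D3_ap (j : ℕ) (hg : Tst g) (y : P3) : Dx (1, 0) (dd2 (ap j g)) y =
    j * ((j - 1 : ℕ) * ((j - 1 - 1 : ℕ) * (y.1 ^ (j - 1 - 1 - 1) * g y))) +
      3 * (j * ((j - 1 : ℕ) * (y.1 ^ (j - 1 - 1) * Dx (1, 0) g y))) +
      3 * (j * (y.1 ^ (j - 1) * dd2 g y)) + y.1 ^ j * Dx (1, 0) (dd2 g) y := by
  have t1 := tst_Dx (1, 0) hg
  have e : ∀ {g : P3 → ℝ} (j : ℕ), Tst g → dd2 (ap j g) = fun y => j * ((j - 1 : ℕ) * ap (j - 1 - 1) g y +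
      ap (j - 1) (Dx (1, 0) g) y) + (j * ap (j - 1) (Dx (1, 0) g) y + ap j (dd2 g) y) :=
    fun j hg => by
      rw [dd2, Dx_ap' j hg, Dx_lin _ (tst_ap _ hg) (tst_ap _ (tst_Dx _ hg)), Dx_ap' _ hg,
        Dx_ap' _ (tst_Dx _ hg), dd2]
  have e' : Dx (1, 0) (dd2 (ap j g)) = dd2 (Dx (1, 0) (ap j g)) := rfl
  have e2 : ∀ (a : ℝ) {g g' : P3 → ℝ}, Tst g → Tst g' →
      dd2 (fun y => a * g y + g' y) = fun y => a * dd2 g y + dd2 g' y := fun a g g' h h' => by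
    rw [dd2, Dx_lin a h h', Dx_lin a (tst_Dx _ h) (tst_Dx _ h'), dd2, dd2]
  rw [e', Dx_ap' j hg, e2 _ (tst_ap _ hg) (tst_ap _ t1), e _ hg, e _ t1]
  simp only [ap, dd2]
  ring

lemma Dx_zero (hρ : Tst ρ) (hκ : Tst κ) {a : ℝ} (h : ∀ y ∈ tsupport ρ, κ y = a) :
    ∀ y ∈ tsupport ρ, Dx (1, 0) κ y = 0 := fun y k =>
  closure_minimal (t := {y | Dx (1, 0) κ y = 0}) (fun z hz => by
    have e : κ =ᶠ[𝓝 z] fun _ => a := (hρ.1.continuous.isOpen_support.eventually_mem hz).mono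
      fun x hx => h x (subset_tsupport _ hx)
    simp [Dx, e.fderiv_eq]) (isClosed_eq (tst_Dx _ hκ).1.continuous continuous_const) k

lemma Dx_out {y : P3} (k : y ∉ tsupport ρ) : y ∉ tsupport (Dx (1, 0) ρ) := fun j =>
  k (tsupport_fderiv_apply_subset ℝ _ j)

lemma key6 (hρ : Tst ρ) (hκ : Tst κ) (h : ∀ y ∈ tsupport ρ, κ y = 1) (y : P3) :
    ∑ j : Fin 7, c6 j * (Dx (1, 0) (dd2 (ap (6 - j) ρ)) y * Dx (1, 0) (dd2 (ap j κ)) y) =
      -720 * ρ y := by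
  simp only [D3_ap _ hρ, D3_ap _ hκ]
  by_cases k : y ∈ tsupport ρ
  · have h1 := Dx_zero hρ hκ h
    have h2 := Dx_zero hρ (tst_Dx _ hκ) h1
    have h3 := Dx_zero hρ (tst_dd2 hκ) h2
    simp only [h y k, h1 y k, show dd2 κ y = 0 from h2 y k, h3 y k]
    simp [Fin.sum_univ_succ, c6]
    ring
  · have z := @image_eq_zero_of_notMem_tsupport P3 ℝ _ _
    simp only [z k, z (Dx_out k), show dd2 ρ y = 0 from z (Dx_out (Dx_out k)),
      show Dx (1, 0) (dd2 ρ) y = 0 from z (Dx_out (Dx_out (Dx_out k))), mul_zero, add_zero, zero_mul,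
      Finset.sum_const_zero]

lemma G6 (hρ : Tst ρ) (hκ : Tst κ) (h : ∀ y ∈ tsupport ρ, κ y = 1) :
    ∑ j : Fin 7, (c6 j : ℂ) * (II (dd2 (ap (6 - j) ρ)) (dd2 (ap j κ)) +
      II (dd2 (ap j κ)) (dd2 (ap (6 - j) ρ))) = ((2 * π) ^ 3 * (-720 * ∫ y, ρ y) : ℝ) := by
  have i : ∀ m n, Integrable fun y => Dx (1, 0) (dd2 (ap m ρ)) y * Dx (1, 0) (dd2 (ap n κ)) y :=
    fun m n => Ap.cs_int (Ap.cs_mul_r (tst_Dx _ (tst_dd2 (tst_ap m hρ)))
      (tst_Dx _ (tst_dd2 (tst_ap n hκ))).1)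
  rw [← integral_const_mul, ← funext (key6 hρ hκ h),
    integral_finset_sum _ fun j _ => (i _ _).const_mul _]
  simp only [II_add (tst_dd2 (tst_ap _ hρ)) (tst_dd2 (tst_ap _ hκ)), integral_const_mul,
    Finset.mul_sum, ← Complex.ofReal_mul, ← Complex.ofReal_sum, mul_left_comm ((2 * π) ^ 3)]

variable {D : Type*} [NormedAddCommGroup D] [InnerProductSpace ℂ D] {c : Kn D}
  {ell : (V → ℂ) → Completion D} {c0 : ℝ} {cc : (ℝ → ℝ) → (ℝ → ℝ) → ℂ} {dd : (ℝ → ℝ) → ℝ}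
  {φ φ' θ : ℝ → ℝ}

variable (c ell) in
/-- the plane form for the legs `Thv (∂_a ∂_a F)` -/
abbrev PW : Fn → Fn → ℂ := PFg c.Q c.SK fun F => Thv ell (daa F)

lemma PW_pr (hg : Tst g) (hφ : Tst φ) (hg' : Tst g') (hφ' : Tst φ') :
    PW c ell (pr g φ) (pr g' φ') = PF c ell (pr (dd2 g) φ) (pr (dd2 g') φ') := by
  have e : ∀ i {g φ}, Tst g → Tst φ → (daa fun z => (tx z i : ℝ) * pr g φ z) =
      fun z => (tx z i : ℝ) * pr (dd2 g) φ z := fun i g φ hg hφ => by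
    have t := test_pr hg hφ
    rw [← daa_pr hg hφ]
    exact (congrArg (dv va) (da_Xc i t)).trans (da_Xc i (Ap.test_dv _ t))
  simp only [PW, PF, PFg, Ap.bar_rmul, Far.bar_pr, daa_pr hg hφ, daa_pr hg' hφ', e _ hg hφ,
    e _ hg' hφ']

/-- **the limit of the four faces** -/
theorem ib_thm (h : El c ell c0) (t : SlW c ell) (S : Schur c ell cc dd) (hρ : Tst ρ) (hκ : Tst κ)
    (hθ : Bump θ) (h1 : ∀ y ∈ tsupport ρ, κ y = 1) (h0 : ∫ y, ρ y ≠ 0) :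
    ∃ G : ℂ, G ≠ 0 ∧ ∀ η > 0, ∀ᶠ ε in 𝓝[>] (0 : ℝ), ∀ᶠ δ in 𝓝[>] (0 : ℝ),
      ‖Faces6 (PW c ell) ρ κ θ ε δ - G * YY cc (chp θ) (chm θ)‖ ≤ η := by
  have G := G6 hρ hκ h1
  refine ⟨_, G ▸ Complex.ofReal_ne_zero.2 (mul_ne_zero (by positivity)
    (mul_ne_zero (by norm_num) h0)), fun η hη => ?_⟩
  have p := sd_ch (.inl rfl) hθ
  have m := sd_ch (.inr rfl) hθ
  have A := fun j => d2_dd2 (tst_ap j hρ)
  have B := fun j => d2_dd2 (tst_ap j hκ)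
  have l1 := tendsto_finset_sum Finset.univ fun (j : Fin 7) _ =>
    ((((faceR h t S (.inr rfl) hθ p (B j) (A (6 - j))).add
      (faceL h t S (.inl rfl) hθ m (B j) (A (6 - j)))).add
      (faceL h t S (.inl rfl) hθ m (A (6 - j)) (B j))).add
      (faceR h t S (.inr rfl) hθ p (A (6 - j)) (B j))).const_mul (c6 j : ℂ)
  have l2 := (((lim_int (S.int _ _ p.d0 m.d0)).comp ratio).sub_const
    (YY cc (ch 1 θ) (ch (-1) θ))).const_mul (∑ j : Fin 7, (c6 j : ℂ) *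
      (II (dd2 (ap (6 - j) ρ)) (dd2 (ap j κ)) + II (dd2 (ap j κ)) (dd2 (ap (6 - j) ρ))))
  have l3 := l1.add l2
  simp only [add_zero, mul_zero, Finset.sum_const_zero, YY, sub_self] at l3
  refine (eventually_curry_iff (p := fun q : ℝ × ℝ => ‖Faces6 _ _ _ _ q.1 q.2 - _‖ ≤ η)).1
    ((((l3.norm.eventually_le_const (by simpa using hη)).and (ev_LL 0)).and
      ((ev_sd (.inl rfl) hθ p).and (ev_sd (.inr rfl) hθ m))).mono fun q ⟨a, b⟩ => (le_of_eq ?_).trans a.1)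
  rw [Function.comp, ← two_int (S.cont _ _ p.d0 m.d0) a.2.1 a.2.2.1]
  simp only [Faces6, chp_eq, chm_eq, abv_eq, blw_eq, YY, Finset.sum_mul, mul_sub,
    ← Finset.sum_add_distrib, ← Finset.sum_sub_distrib,
    PW_pr (tst_ap _ hρ) b.1.2.1 (tst_ap _ hκ) b.2.1.1, PW_pr (tst_ap _ hκ) b.1.1.1 (tst_ap _ hρ) b.2.2.1,
    PW_pr (tst_ap _ hρ) b.1.1.1 (tst_ap _ hκ) b.2.2.1, PW_pr (tst_ap _ hκ) b.1.2.1 (tst_ap _ hρ) b.2.1.1]
  congr 1
  exact Finset.sum_congr rfl fun j _ => by ring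

end

end Vale.Agent.P352L.Z
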