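import Vale.Agent.P352L.Z.Cell

/-!
# P352L, block Z: the part `K0` of the plane form
-/

set_option linter.all false

open MeasureTheory Filter Topology Set
open scoped SchwartzMap ComplexConjugate ContDiff Real

namespace Vale.Agent.P352L.Z

open Vale.Agent.P352 Vale.Agent.P352.GF Vale.Agent.P352.BW Vale.Agent.P352.H246
open Vale.Agent.P352.H496 Vale.Agent.P352.H755 Vale.Agent.P352X Vale.Agent.P352X.Ib
open UniformSpace (Completion)
open Complex (I exp)

noncomputable section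

variable {D : Type*} [NormedAddCommGroup D] [InnerProductSpace ℂ D] {c : Kn D} {f u v : Fn}
  {g g' : P3 → ℝ} {χ φ φ' : ℝ → ℝ} {ell : (V → ℂ) → Completion D} {c0 : ℝ}

variable (c ell) in
/-- the plane form for the legs `Thv` -/
def PF (fA fB : Fn) : ℂ := PFg c.Q c.SK (Thv ell) fA fB

lemma th_Mc (E : El c ell c0) (i : Fin 2) (hf : IsTest f) : Thv ell (Mc i f) = Thv ell (Xc i (dv va f)) + Thv ell (Nc i f) :=
  th_add E (test_Xc i (Ap.test_dv va hf)) (test_Nc i hf)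

lemma gn_P (E : El c ell c0) (hf : IsTest f) : Gn (Pa c.Q) (Thv ell f) (I • Thv ell (dv va f)) := uth E va hf

lemma mp (E : El c ell c0) (i : Fin 2) (hf : IsTest f) :
    gen (Mi c.Q i) (Thv ell f) = gen (Pa c.Q) (Thv ell (Xc i f)) + I • Thv ell (Nc i f) := by
  rw [(mith E i hf).gen_eq, (gn_P E (test_Xc i hf)).gen_eq, th_Mc E i hf, da_Xc i hf, smul_add]

/-- `K0` on derivatives along `al` -/
theorem gn_K0 (E : El c ell c0) (hf : IsTest f) :
    Gn c.S0 (Thv ell (dv va f)) (∑ i, gen (Mi c.Q i) (Thv ell (Mc i f))) := by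
  have t := Ap.test_dv va hf
  have m := fun i {f} (hf : IsTest f) => mith E i hf
  refine c.k0 _ _ (fun i => ⟨(m i t).dm, (m i t).gen_eq ▸ (m i (Ap.test_Mc i t)).dm.smul I⟩) ?_
    (Gn.sum _ fun i _ => ?_)
  · simp only [inner_sum, fun i => (m i (Ap.test_Mc i hf)).gen_eq, inner_smul_right,
      fun i => th_perp E (Ap.test_Mc i (Ap.test_Mc i hf)), mul_zero, Finset.sum_const_zero]
  · rw [(m i (Ap.test_Mc i hf)).gen_eq, (m i t).gen_eq, ((m i (Ap.test_Mc i t)).smul I).gen_eq,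
      ← da_Mc i hf, ← da_Mc i (Ap.test_Mc i hf)]
    exact (gn_P E (Ap.test_Mc i (Ap.test_Mc i hf))).smul I

lemma PF_eq (hu : bar u = u) (v : Fn) : PF c ell u v = inner ℂ (Thv ell u) (gen c.SK (Thv ell v)) -
    ∑ i, (inner ℂ (Thv ell (Xc i u)) (gen (Mi c.Q i) (Thv ell v)) +
      inner ℂ (Thv ell u) (gen (Mi c.Q i) (Thv ell (Xc i v)))) +
    ∑ i, inner ℂ (Thv ell (Xc i u)) (gen (Pa c.Q) (Thv ell (Xc i v))) := by
  simp only [PF, PFg, Ap.bar_rmul, hu]
  rfl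

/-- **The part `K0` of the plane form.** -/
theorem pf_K0 (E : El c ell c0) (hu : IsTest u) (hb : bar u = u) (hf : IsTest f)
    (hd : Dm c.SK (Thv ell (dv va f))) : PF c ell u (dv va f) - inner ℂ (Thv ell u) (gen c.Sk (Thv ell (dv va f))) =
      -I * ∑ i, inner ℂ (Thv ell (Nc i u)) (Thv ell (Nc i f)) := by
  have t := Ap.test_dv va hf
  have m := fun i {f} (hf : IsTest f) => (mith E i hf).dm
  rw [PF_eq hb, (c.split _ hd).1, (gn_K0 E hf).gen_eq, inner_add_right, inner_sum,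
    Finset.mul_sum]
  have e : ∀ i, inner ℂ (Thv ell u) (gen (Mi c.Q i) (Thv ell (Mc i f))) -
      (inner ℂ (Thv ell (Xc i u)) (gen (Mi c.Q i) (Thv ell (dv va f))) +
        inner ℂ (Thv ell u) (gen (Mi c.Q i) (Thv ell (Xc i (dv va f))))) +
      inner ℂ (Thv ell (Xc i u)) (gen (Pa c.Q) (Thv ell (Xc i (dv va f)))) =
      -I * inner ℂ (Thv ell (Nc i u)) (Thv ell (Nc i f)) := fun i => by
    rw [th_Mc E i hf, gen_add (m i (test_Xc i t)) (m i (test_Nc i hf)), inner_add_right,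
      (c.ugM i).symm (m i hu).gn (m i (test_Nc i hf)).gn, mp E i hu, mp E i t, ← da_Nc i hf,
      inner_add_right, inner_add_left, c.ugPa.symm (gn_P E (test_Xc i hu)).dm.gn
        (gn_P E (test_Nc i hf)), inner_smul_left, Complex.conj_I]
    ring
  simp only [← e, Finset.sum_add_distrib, Finset.sum_sub_distrib]
  ring

theorem pf_symm (E : El c ell c0) (hu : IsTest u) (hb : bar u = u) (hv : IsTest v)
    (hb' : bar v = v) (du : Dm c.SK (Thv ell u)) (dw : Dm c.SK (Thv ell v)) :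
    conj (PF c ell u v) = PF c ell v u := by
  have m := fun i {f} (hf : IsTest f) => (mith E i hf).dm
  simp only [PF_eq hb, PF_eq hb', map_add, map_sub, map_sum, sym_inner c.ugK du dw,
    fun i => sym_inner (c.ugM i) (m i (test_Xc i hu)) (m i hv),
    fun i => sym_inner (c.ugM i) (m i hu) (m i (test_Xc i hv)),
    fun i => sym_inner c.ugPa (gn_P E (test_Xc i hu)).dm (gn_P E (test_Xc i hv)).dm]
  simp only [add_comm (inner ℂ (Thv ell v) _)]

variable (c ell) in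
/-- the remainder -/
def Rm (g : P3 → ℝ) (φ : ℝ → ℝ) (g' : P3 → ℝ) (φ' : ℝ → ℝ) : ℂ :=
  PF c ell (pr g φ) (pr g' φ') - inner ℂ (Thv ell (pr g φ)) (gen c.Sk (Thv ell (pr g' φ')))

variable (E : El c ell c0) (t : SlW c ell)
include t

lemma dm_k (hg : D2 g) (hφ : Sd φ) : Dm c.Sk (Thv ell (pr g φ)) :=
  ((c.dom _).1 (dm_pr t hg hφ)).1

include E

lemma PF_conj (hg : D2 g) (hφ : Sd φ) (hg' : D2 g') (hφ' : Sd φ') :
    conj (PF c ell (pr g φ) (pr g' φ')) = PF c ell (pr g' φ') (pr g φ) :=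
  pf_symm E (test_pr hg.tst hφ.1) (Far.bar_pr _ _) (test_pr hg'.tst hφ'.1) (Far.bar_pr _ _)
    (dm_pr t hg hφ) (dm_pr t hg' hφ')

lemma Rm_conj (hg : D2 g) (hφ : Sd φ) (hg' : D2 g') (hφ' : Sd φ') :
    conj (Rm c ell g φ g' φ') = Rm c ell g' φ' g φ := by
  rw [Rm, map_sub, PF_conj E t hg hφ hg' hφ', sym_inner c.ugk (dm_k t hg hφ) (dm_k t hg' hφ'), Rm]

theorem Rm_le (hg : Tst g) (hφ : Tst φ) (hg' : Tst g') (h2 : D2 (Dx (1, 0) g')) (hφ' : Sd φ') :
    ‖Rm c ell g φ (Dx (1, 0) g') φ'‖ ≤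
      ∑ i, ‖Thv ell (pr (Dx (0, e2 i) g) (tm φ))‖ * ‖Thv ell (pr (Dx (0, e2 i) g') (tm φ'))‖ := by
  have d := dm_pr t h2 hφ'
  rw [Rm]
  rw [← da_pr hg' hφ'.1] at d ⊢
  rw [pf_K0 E (test_pr hg hφ) (Far.bar_pr _ _) (test_pr hg' hφ'.1) d, norm_mul,
    norm_neg, Complex.norm_I, one_mul]
  simp only [fun i => Nc_pr i hg hφ, fun i => Nc_pr i hg' hφ'.1]
  exact (norm_sum_le _ _).trans (Finset.sum_le_sum fun i _ => norm_inner_le_norm _ _)

end

end Vale.Agent.P352L.Z
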