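import Vale.Agent.P352L.Z.Wz

/-!
# P352L, block Z: row SW
-/

noncomputable section

open MeasureTheory Filter Topology Complex Set
open scoped ComplexConjugate SchwartzMap ENNReal Real

namespace Vale.Agent.P352L.Z

open Vale.Agent.P352 Vale.Agent.P352.GF Vale.Agent.P352.BW Vale.Agent.P352.H755 Vale.Agent.P352X
open Ib Swp
open UniformSpace (Completion)

variable {D : Type*} [NormedAddCommGroup D] [InnerProductSpace ℂ D] {c : Kn D}
  {ell : (V → ℂ) → Completion D} {c0 : ℝ} {γ : P3 → ℂ} {θ φ χ : ℝ → ℝ} {a b ε σ R : ℝ}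
  {cc : (ℝ → ℝ) → (ℝ → ℝ) → ℂ} {dd : (ℝ → ℝ) → ℝ}

lemma ex_g2 : ∃ g, Tst g ∧ 0 < ∫ k, ‖ft3 (cx (dd2 g)) k‖ ^ 2 ∂m3 := by
  obtain ⟨u, hu, -, -, i⟩ := Ap.ex_rho (volume : Measure P3) (x := 0) univ_mem
  have c2 := cont_ft3 (g := cx u) (Ap.cs_int (Ap.dc_cx hu))
  have hd := tst_dd2 hu
  have e : ∀ᶠ t in 𝓝 (0 : ℝ), ft3 (cx u) (t, 0) ≠ 0 :=
    (c2.comp (continuous_id.prodMk continuous_const)).continuousAt.eventually_ne (by
      have := ft3_zero (cx u)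
      simp only [cx, integral_complex_ofReal, i] at this
      exact this.trans_ne (by simp))
  obtain ⟨t, t1, t2⟩ := ((e.filter_mono nhdsWithin_le_nhds).and
    (self_mem_nhdsWithin (s := Ioi (0 : ℝ)))).exists
  refine ⟨u, hu, Sch.pos_of_ne (mem_ft3 hd) (isOpen_compl_singleton.preimage
    (cont_ft3 (g := cx _) (Ap.cs_int (Ap.dc_cx hd)))) ⟨(t, 0), ?_, t2⟩ fun k hk => hk.1⟩
  have t4 : -(I * t) ≠ 0 := by simpa using t2.ne'
  show ft3 (cx (dd2 u)) (t, 0) ≠ 0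
  rw [dd2, Ib.ft3_Dx (Ib.tst_Dx _ hu), Ib.ft3_Dx hu]
  exact mul_ne_zero t4 (mul_ne_zero t4 t1)

lemma tht_dil (he : El c ell c0) (hγ : MemLp γ 2 m3) (hθ : Tst θ) : ∃ C : ℝ, 0 ≤ C ∧ ∀ s, 0 < s →
    ‖Tht ell γ (dil s θ)‖ ≤ C / √s := by
  refine ⟨√(9 * c0 * (∫ k, ‖γ k‖ ^ 2 ∂m3) * (8 * π * q2 (deriv (cx θ)))),
    Real.sqrt_nonneg _, fun s hs => ?_⟩
  have := tt_sq he hγ (S1 (dil s θ))
  rw [S1_coe (tst_dil hθ hs), deriv_dil, q2_dil hs, ← Tht_eq] at this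
  rw [← Real.sqrt_div' _ hs.le]
  refine Real.le_sqrt_of_sq_le (this.trans_eq ?_)
  field_simp

section

variable (he : El c ell c0) (hs : Schur c ell cc dd) (hγ : MemLp γ 2 m3) (hθ : Bump θ)
  (hR : ∀ t, R ≤ |t| → θ t = 0) (hσ : σ = 1 ∨ σ = -1) (ha : 0 < a) (hb : a ≤ b) (k : R * a ≤ b)
include hs hγ hθ hR hσ ha hb k

lemma plat_eq (hχ : D0 χ) (hε : 0 < ε) :
    inner ℂ (TtL he hγ (S1 (ab σ (dil b θ) θ a))) (gen c.Sk (Tht ell γ (dil ε χ))) =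
      (∫ s in a / ε..b / ε, cc (dil s (ch σ θ)) χ / s) * ((∫ k, ‖γ k‖ ^ 2 ∂m3 : ℝ) : ℂ) := by
  have d := (sd_ch hσ hθ).d0
  rw [← inner_conj_symm, ← innerSL_apply_apply, ← ContinuousLinearMap.comp_apply,
    plat _ hσ hθ hR ha hb k, ← intervalIntegral.intervalIntegral_conj,
    ← intervalIntegral.inv_smul_integral_comp_div, ← intervalIntegral.integral_smul,
    ← intervalIntegral.integral_mul_const]
  refine intervalIntegral.integral_congr fun s h => ?_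
  rw [uIcc_of_le hb] at h
  have s0 := ha.trans_le h.1
  have e := hs.scc _ _ ε (Ap.d0_dil d (div_pos s0 hε).ne') hχ hε
  rw [dil_dil, mul_div_cancel₀ _ hε.ne'] at e
  simp only [ContinuousLinearMap.comp_apply, innerSL_apply_apply, TtL_S1 he hγ (tst_dil d.1 s0),
    smul_eq_mul, map_mul, conj_ofReal, inner_conj_symm, real_smul,
    hs.form _ _ _ _ hγ (Ap.d0_dil d s0.ne') hγ (Ap.d0_dil hχ hε.ne'), Sch.integral_sq, e]
  have := ofReal_ne_zero.2 hε.ne'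
  push_cast
  field_simp

lemma plat_err {z : Completion D} (hz : Dm c.Sk z) :
    ‖inner ℂ (TtL he hγ (S1 (ab σ (dil b θ) θ a))) (gen c.Sk z)‖ ≤
      2 * (‖z‖ * ‖gen c.Sk (Tht ell γ (ch σ θ))‖) * √b := by
  have d := (sd_ch hσ hθ).d0
  rw [norm_inner_symm]
  refine plat_le (innerSL ℂ (gen c.Sk z) ∘L TtL he hγ) hσ hθ hR ha hb k fun s h => ?_
  have s0 := ha.trans_le h.1
  have d' := Ap.d0_dil d s0.ne'
  have e : ‖gen c.Sk (Tht ell γ (dil s (ch σ θ)))‖ = ‖gen c.Sk (Tht ell γ (ch σ θ))‖ * √s := by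
    rw [← pow_left_inj₀ (norm_nonneg _) (by positivity) two_ne_zero, mul_pow, Real.sq_sqrt s0.le,
      hs.nrm _ _ hγ d', hs.nrm _ _ hγ d, hs.sdd _ _ d s0]
    ring
  rw [ContinuousLinearMap.comp_apply, innerSL_apply_apply, TtL_S1 he hγ d'.1, norm_inner_symm,
    ← sym_inner c.ugk hz (hs.dom _ _ hγ d'), norm_conj, mul_assoc, ← e]
  exact norm_inner_le_norm _ _

end

/-- **both legs below the plane** -/
theorem sw_thm (he : El c ell c0) (t : SlW c ell) (hs : Schur c ell cc dd) (hθ : Bump θ) :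
    YY cc (chp θ) (chm θ) + YY cc (chm θ) (chm θ) = 0 := by
  obtain ⟨g, hg, n0⟩ := ex_g2
  have hd := tst_dd2 hg
  have hγ := mem_ft3 hd
  set γ := ft3 (cx (dd2 g))
  set n := ∫ k, ‖γ k‖ ^ 2 ∂m3
  have hχ := Ap.d0_chm hθ
  have sχ : Sd (chm θ) := chm_eq θ ▸ sd_ch (.inr rfl) hθ
  obtain ⟨R, R0, hR⟩ := rad hθ.1
  obtain ⟨C1, p1, h1⟩ := dt_dil he hd hχ.1
  obtain ⟨C2, p2, h2⟩ := cell he t (d2_dd2 hg) sχ
  obtain ⟨C3, p3, h3⟩ := tht_dil he hγ hθ.1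
  set χ := chm θ
  have i : ∀ {σ : ℝ}, σ = 1 ∨ σ = -1 →
      IntegrableOn (fun s : ℝ => cc (dil s (ch σ θ)) χ / s) (Ioi 0) := fun h =>
    hs.int _ _ (sd_ch h hθ).d0 hχ
  set A := ‖gen c.Sk (Tht ell γ (ch 1 θ))‖ + ‖gen c.Sk (Tht ell γ (ch (-1) θ))‖
  set F : ℝ → ℝ → ℂ := fun x y => ((∫ s in x..y, cc (dil s (ch 1 θ)) χ / s) +
    ∫ s in x..y, cc (dil s (ch (-1) θ)) χ / s) * n
  have key : ∀ b > 0, ∀ ε ∈ Ioc (0 : ℝ) 1,
      ‖F 0 (b / ε)‖ ≤ 2 * (C1 * √ε * A) * √b + C3 / √b * C2 := fun b hb ε hε => by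
    have sε := sχ.dil hε.1
    set x := Thv ell (pr (dd2 g) (dil ε χ))
    have dx : Dm c.Sk x := dm_k t (d2_dd2 hg) sε
    have dy := hs.dom _ _ hγ sε.d0
    obtain ⟨b1, b2, q1, q2⟩ : ∃ b1 b2, b2 < 0 ∧ tsupport (dil ε χ) ⊆ Icc b1 b2 := by
      obtain ⟨r, -, hr⟩ := Ap.ex_Icc hχ.1
      exact ⟨_, _, by linarith [hε.1], Ap.tsupport_dil_Icc (a := -r) (b := -1)
        (fun y hy => ⟨(hr hy).1, (Ap.tsupport_chm hθ hy).1⟩) hε.1⟩
    have z := wz_kt t he hγ hθ.1 (test_pr hg sε.1) (b1 := b1) q1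
      fun y hy => q2 (Ap.tsupport_pr _ _ hy).2
    rw [daa_pr hg sε.1] at z
    have l := (((lim0 (i (.inl rfl)) (div_pos hb hε.1) hε.1).add
      (lim0 (i (.inr rfl)) (div_pos hb hε.1) hε.1)).mul_const (n : ℂ)).norm
    refine le_of_tendsto_of_tendsto l (by simpa using z.norm.const_add _) ?_
    filter_upwards [Ioo_mem_nhdsGT (lt_min hb (div_pos hb R0))] with a ha
    have k1 := (ha.2.trans_le (min_le_left _ _)).le
    have k2 := ((lt_div_iff₀' R0).1 (ha.2.trans_le (min_le_right _ _))).le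
    have e := fun {σ : ℝ} (h : σ = 1 ∨ σ = -1) =>
      plat_err he hs hγ hθ hR h ha.1 k1 k2 (dy.gn.sub dx.gn).dm
    have e' := congrArg (fun v => inner ℂ (TtL he hγ v) (gen c.Sk x)) (ab_add hθ hR ha.1 hb k2)
    simp only [map_add, map_sub, inner_add_left, inner_sub_left, TtL_S1 he hγ (tst_dil hθ.1 hb),
      TtL_S1 he hγ (tst_dil hθ.1 ha.1)] at e'
    simp only [(dy.gn.sub dx.gn).gen_eq, inner_sub_right] at e
    have e1 := e (.inl rfl)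
    have e2 := e (.inr rfl)
    rw [plat_eq he hs hγ hθ hR (.inl rfl) ha.1 k1 k2 hχ hε.1] at e1
    rw [plat_eq he hs hγ hθ hR (.inr rfl) ha.1 k1 k2 hχ hε.1] at e2
    have f1 := (norm_inner_le_norm (𝕜 := ℂ) (Tht ell γ (dil b θ)) (gen c.Sk x)).trans
      (mul_le_mul (h3 b hb) (h2 ε hε.1 hε.2) (norm_nonneg _) (by positivity))
    have f2 : ‖Tht ell γ (dil ε χ) - x‖ * A * √b ≤ C1 * √ε * A * √b := by
      gcongr
      exact norm_sub_rev _ x ▸ h1 ε hε.1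
    have f3 := norm_add_le_of_le (norm_add_le_of_le e1 e2) (norm_sub_le_of_le f1
      (norm_inner_symm (𝕜 := ℂ) (Tht ell γ (dil a θ)) (gen c.Sk x)).le)
    rw [← e', sub_add_sub_comm, sub_add_cancel, ← add_mul] at f3
    simp only [A] at f2
    linarith
  have key2 : ∀ b > 0, ‖(YY cc (chp θ) χ + YY cc χ χ) * n‖ ≤ C3 / √b * C2 := fun b hb => by
    have l : Tendsto (fun ε : ℝ => b / ε) (𝓝[>] 0) atTop :=
      tendsto_inv_nhdsGT_zero.const_mul_atTop hb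
    have l2 : Tendsto (fun ε : ℝ => 2 * (C1 * √ε * A) * √b + C3 / √b * C2) (𝓝[>] 0)
        (𝓝 (C3 / √b * C2)) := (Continuous.tendsto' (by fun_prop) 0 _ (by simp)).mono_left
          nhdsWithin_le_nhds
    rw [chp_eq, YY, YY]
    nth_rewrite 2 [show χ = ch (-1) θ from chm_eq θ]
    refine le_of_tendsto_of_tendsto (((intervalIntegral_tendsto_integral_Ioi 0 (i (.inl rfl)) l).add
      (intervalIntegral_tendsto_integral_Ioi 0 (i (.inr rfl)) l)).mul_const (n : ℂ)).norm l2 ?_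
    filter_upwards [Ioc_mem_nhdsGT one_pos] with ε hε using key b hb ε hε
  have l : Tendsto (fun b : ℝ => C3 / √b * C2) atTop (𝓝 (0 * C2)) :=
    (Real.tendsto_sqrt_atTop.const_div_atTop C3).mul_const C2
  have := ge_of_tendsto l ((eventually_gt_atTop 0).mono key2)
  rw [zero_mul, norm_le_zero_iff] at this
  exact (mul_eq_zero.1 this).resolve_right (ofReal_ne_zero.2 n0.ne')

end Vale.Agent.P352L.Z

end
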