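import Vale.Agent.P352L.Z.Sm
import Vale.Agent.P352L.Z.IB
import Vale.Agent.P352L.Z.SW

/-!
# P352L, block Z: the thin vectors are moved geometrically by `K`
-/

set_option linter.all false

open MeasureTheory Filter Topology Set
open scoped SchwartzMap ComplexConjugate ContDiff

namespace Vale.Agent.P352L.Z

open Vale.Agent.P352 Vale.Agent.P352.GF Vale.Agent.P352.H755 Vale.Agent.P352.H246
  Vale.Agent.P352.H496 Vale.Agent.P352X
open Th Ap Ib D1
open UniformSpace (Completion)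
open Complex (I)

noncomputable section

variable {D : Type*} [NormedAddCommGroup D] [InnerProductSpace ℂ D] {c : Kn D}
  {ell : (V → ℂ) → Completion D} {c0 : ℝ} {cc : (ℝ → ℝ) → (ℝ → ℝ) → ℂ} {dd : (ℝ → ℝ) → ℝ}
  {g : P3 → ℂ} {θ : ℝ → ℝ}

/-- **the logarithmic coefficient vanishes** -/
theorem yz_thm (h : El c ell c0) (t : SlW c ell) (S : Schur c ell cc dd) (hz : FZ (PW c ell))
    (hθ : Bump θ) : YY cc (chm θ) (chm θ) = 0 := by
  obtain ⟨ρ, κ, hρ, hκ, h1, h0, hz⟩ := hz θ hθ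
  obtain ⟨G, G0, hG⟩ := ib_thm h t S hρ hκ hθ h1 h0
  have : G * YY cc (chp θ) (chm θ) = 0 := norm_le_zero_iff.1 (le_of_forall_pos_le_add fun η hη => by
    obtain ⟨ε, a, b⟩ := ((hz _ (half_pos hη)).and (hG _ (half_pos hη))).exists
    obtain ⟨δ, a, b⟩ := (a.and b).exists
    have := norm_sub_le_of_le a b
    rw [sub_sub_cancel] at this
    linarith)
  simpa [(mul_eq_zero.1 this).resolve_left G0] using sw_thm h t S hθ

lemma key0 (h : El c ell c0) (S : Schur c ell cc dd) (hy : YY cc (chm th) (chm th) = 0) {r : ℝ}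
    (hr : 0 ≤ r) (hg : Dc g) : Tendsto (fun n => ell (ft (pf (da g) (cx (Ph n)))) -
      c.SK r (ell (ft (pf (da fun y => g (sf r y)) (cx (Ph n)))))) atTop (𝓝 0) := by
  have := haar3
  have m : ∀ {g : P3 → ℂ}, Dc g → MemLp (ft3 (da g)) 2 mP := fun hg =>
    (l2 (sw_ft3 (dc_sw (dc_da hg)))).restrict _
  have nr : ∀ {g : P3 → ℂ} (hg : Dc g), Tendsto (fun n => La h (m hg) (S1 (Ph n)) -
      ell (ft (pf (da g) (cx (Ph n))))) atTop (𝓝 0) := fun hg => by
    obtain ⟨C, hC⟩ := near h (dc_sw hg) (m hg)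
    have := (Ph_sq.const_mul C).sqrt
    rw [mul_zero, Real.sqrt_zero] at this
    exact squeeze_zero_norm (fun n => Real.le_sqrt_of_sq_le (hC _ (Ph_tst n))) this
  have hγ : MemLp (ft3 g) 2 m3 := mem_m3.2 ⟨(sw_cont (sw_ft3 (dc_sw hg))).aestronglyMeasurable, by
    refine ((m hg).const_mul I).ae_eq (.of_forall fun k => ?_)
    simp only [ft3_da (dc_sw hg)]
    linear_combination (-(k.1 * ft3 g k)) * Complex.I_mul_I⟩
  have h1 := small S hγ h (m hg) (ft3_da (dc_sw hg)) hy hr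
  have h2 : ∀ n, c.S0 r (La h (m (dc_sf hg r)) (S1 (Ph n))) = La h (m hg) (S1 (Ph n)) := fun n => by
    have := h.s0 r (sch (da fun y => g (sf r y))) (sch (da g))
      (fun b u => ft1 (S1 (Ph n)) (u / (2 * b)))
      ((sw_cont (sw_ft1 (sw_coe _))).measurable.comp (by fun_prop))
      (fun y => by rw [sch_dc (dc_da hg), sch_dc (dc_da (dc_sf hg r)), da_sf hg]; simp [sf])
    rw [coe_sch (dc_sw (dc_da hg)), coe_sch (dc_sw (dc_da (dc_sf hg r)))] at this
    rw [La_apply, La_apply]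
    exact (this (mem_prod (m (dc_sf hg r)) ((l2 (sw_ft1 (sw_coe _))).restrict _))).2
  have := (((c.SK r).continuous.tendsto 0).comp (nr (dc_sf hg r))).sub (nr hg) |>.sub h1
  rw [map_zero, sub_zero, sub_zero] at this
  refine this.congr fun n => ?_
  rw [Function.comp, map_sub, c.comm, ContinuousLinearMap.mul_apply, h2]
  abel

/-- **the key of row D1** -/
theorem key (h : El c ell c0) (t : SlW c ell) (hz : FZ (PW c ell)) {r : ℝ} (hr : 0 ≤ r)
    (hg : Dc g) : Tendsto (fun n => ell (ft (pf (da g) (cx (Ph n)))) -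
      c.SK r (ell (ft (pf (da fun y => g (sf r y)) (cx (Ph n)))))) atTop (𝓝 0) :=
  key0 h (Sr.schur_thm t h) (yz_thm h t (Sr.schur_thm t h) hz th_bump) hr hg

end

end Vale.Agent.P352L.Z
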