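import Vale.Agent.P352L.Z.Fo

/-!
# P352L, block Z: the thin vectors are almost invariant
-/

set_option linter.all false

open MeasureTheory Filter Topology Set
open scoped SchwartzMap ComplexConjugate ContDiff

namespace Vale.Agent.P352L.Z

open Vale.Agent.P352 Vale.Agent.P352.GF Vale.Agent.P352.H755 Vale.Agent.P352X
open Th Ap Ib D1
open UniformSpace (Completion)
open Complex (I)

noncomputable section

variable {D : Type*} [NormedAddCommGroup D] [InnerProductSpace ℂ D] {c : Kn D}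
  {ell : (V → ℂ) → Completion D} {c0 : ℝ} {cc : (ℝ → ℝ) → (ℝ → ℝ) → ℂ} {dd : (ℝ → ℝ) → ℝ}
  {G γ : P3 → ℂ} {φ φ' : ℝ → ℝ} {a b s : ℝ}

variable (c ell γ) in
/-- the form of `Kt` -/
def bf (φ' φ : ℝ → ℝ) : ℂ := inner ℂ (Tht ell γ φ') (gen c.Sk (Tht ell γ φ))

variable (S : Schur c ell cc dd) (hγ : MemLp γ 2 m3)
include S hγ

lemma bf_eq (h' : D0 φ') (h : D0 φ) :
    bf c ell γ φ' φ = inner ℂ (gen c.Sk (Tht ell γ φ')) (Tht ell γ φ) :=
  c.ugk.symm (S.dom _ _ hγ h').gn (S.dom _ _ hγ h).gn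

lemma bf_conj (h' : D0 φ') (h : D0 φ) : bf c ell γ φ' φ = conj (bf c ell γ φ φ') := by
  rw [bf_eq S hγ h' h, bf, inner_conj_symm]

lemma bf_dil (h' : Sd φ') (h : Sd φ) (hs : 0 < s) :
    bf c ell γ (dil s φ') (dil s φ) = bf c ell γ φ' φ := by
  rw [bf, bf, S.form _ _ _ _ hγ (h'.dil hs).d0 hγ (h.dil hs).d0, S.form _ _ _ _ hγ h'.d0 hγ h.d0,
    S.scc _ _ _ h'.d0 h.d0 hs]

lemma gen_dil (h : Sd φ) (hs : 0 < s) :
    ‖gen c.Sk (Tht ell γ (dil s φ))‖ = ‖gen c.Sk (Tht ell γ φ)‖ * √s := by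
  rw [← sq_eq_sq₀ (norm_nonneg _) (by positivity), mul_pow, Real.sq_sqrt hs.le,
    S.nrm _ _ hγ (h.dil hs).d0, S.nrm _ _ hγ h.d0, S.sdd _ _ h.d0 hs]
  ring

variable (h : El c ell c0) (hG : MemLp G 2 mP) (e : ∀ k, G k = -(I * k.1) * γ k)
include h hG e

lemma bf_ps (h' : D0 φ') (ha : 0 < a) (hb : 0 < b) : bf c ell γ φ' (ps a b) =
    ∫ s in a..b, ((s⁻¹ : ℝ) : ℂ) • bf c ell γ φ' (dil s (chm th)) := by
  rw [bf_eq S hγ h' (sd_ps ha hb).d0, Tht_La h hG e (sd_ps ha hb).1]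
  refine (plat (innerSL ℂ (gen c.Sk (Tht ell γ φ')) ∘L ((6 : ℂ) • (La h hG ∘L
    SchwartzMap.derivCLM ℂ ℂ))) ha hb).trans (intervalIntegral.integral_congr fun s hs => ?_)
  have k := sd_chi.dil ((lt_min ha hb).trans_le hs.1)
  beta_reduce
  rw [bf_eq S hγ h' k.d0, Tht_La h hG e k.1]
  rfl

lemma orth (hY : YY cc (chm th) (chm th) = 0) : ∃ K, 0 ≤ K ∧ ∀ x y : ℝ, 1 ≤ x → 0 < y →
    ‖bf c ell γ (ps (y ^ 2)⁻¹ (y ^ 2)) (ps (x ^ 2)⁻¹ (x ^ 2))‖ ≤ K * (x / y) := by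
  set K := ‖Tht ell γ (chm th)‖ * ‖gen c.Sk (Tht ell γ (chm th))‖
  have K0 : 0 ≤ K := by positivity
  have χ := sd_chi
  have b0 : ∀ s : ℝ, s ∈ Ioi (0 : ℝ) → bf c ell γ (chm th) (dil s (chm th)) / s =
      conj (cc (dil s (chm th)) (chm th) / s * ∫ k, conj (γ k) * γ k ∂m3) := fun s hs => by
    rw [bf_conj S hγ χ.d0 (χ.dil hs).d0, bf, S.form _ _ _ _ hγ (χ.dil hs).d0 hγ χ.d0,
      div_mul_eq_mul_div, map_div₀, Complex.conj_ofReal]
  have b1 : ∀ s, 0 < s → ‖bf c ell γ (chm th) (dil s (chm th))‖ ≤ K * √s := fun s hs =>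
    (norm_inner_le_norm _ _).trans_eq (by rw [gen_dil S hγ χ hs, mul_assoc])
  have b2 : ∀ s, 0 < s → ‖bf c ell γ (chm th) (dil s (chm th))‖ ≤ K * (√s)⁻¹ := fun s hs => by
    have := bf_dil S hγ χ (χ.dil hs) (inv_pos.2 hs)
    rw [dil_dil, inv_mul_cancel₀ hs.ne', dil_one] at this
    rw [← this, bf_conj S hγ (χ.dil (inv_pos.2 hs)).d0 χ.d0, RCLike.norm_conj, ← Real.sqrt_inv]
    exact b1 _ (inv_pos.2 hs)
  have t := fun x y => tails (β := fun s => bf c ell γ (chm th) (dil s (chm th))) (x := x) (y := y)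
    ((integrableOn_congr_fun b0 measurableSet_Ioi).2 (Complex.conjCLE.toContinuousLinearMap.integrable_comp
      ((S.int _ _ χ.d0 χ.d0).mul_const _)))
    (by rw [setIntegral_congr_fun measurableSet_Ioi b0, integral_conj, integral_mul_const, ← YY, hY,
      zero_mul, map_zero]) K0 b1 b2
  refine ⟨8 * K, by positivity, fun x y hx hy => ?_⟩
  have x0 := one_pos.trans_le hx
  have p1 : 0 < y ^ 2 := by positivity
  have p2 := inv_pos.2 p1
  have p3 : 0 < x ^ 2 := by positivity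
  rw [bf_ps S hγ h hG e (sd_ps p2 p1).d0 (inv_pos.2 p3) p3]
  refine (mid (A := 2 * K * y⁻¹) (B := 2 * K * y⁻¹) (inv_pos.2 p3) ((inv_le_one_of_one_le₀
    (one_le_pow₀ hx)).trans (one_le_pow₀ hx)) (by positivity) (by positivity)
    fun s hs => ?_).trans_eq ?_
  · have q1 := div_pos p1 hs
    have q2 := div_pos p2 hs
    rw [bf_conj S hγ (sd_ps p2 p1).d0 (χ.dil hs).d0, RCLike.norm_conj, ← dil_ps hs,
      bf_dil S hγ χ (sd_ps q2 q1) hs, bf_ps S hγ h hG e χ.d0 q2 q1]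
    simp only [smul_eq_mul, Complex.ofReal_inv, ← div_eq_inv_mul]
    refine (t _ _ q2 q1).trans_eq ?_
    rw [Real.sqrt_div p1.le, Real.sqrt_div p2.le, Real.sqrt_inv, Real.sqrt_sq hy.le]
    field_simp
  · rw [Real.sqrt_inv, Real.sqrt_sq x0.le]
    field_simp
    ring

theorem small (hY : YY cc (chm th) (chm th) = 0) {r : ℝ} (hr : 0 ≤ r) :
    Tendsto (fun n => c.Sk r (La h hG (S1 (Ph n))) - La h hG (S1 (Ph n))) atTop (𝓝 0) := by
  obtain ⟨K, K0, hK⟩ := orth S hγ h hG e hY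
  have lim := tendsto_one_div_add_atTop_nhds_zero_nat (𝕜 := ℝ)
  have sd := fun n j => sd_ps (a_pos n j) (pow_pos (xs_pos n j) 2)
  set z : ℕ → Completion D := fun n => ((n + 1 : ℝ)⁻¹ : ℂ) •
    ∑ j ∈ Finset.range (n + 1), Tht ell γ (ps (xs n j ^ 2)⁻¹ (xs n j ^ 2))
  set u : ℕ → Completion D := fun n => ((n + 1 : ℝ)⁻¹ : ℂ) •
    ∑ j ∈ Finset.range (n + 1), La h hG (S1 (dlt (xs n j ^ 2) et))
  have h1 : Tendsto (fun n => c.Sk r (z n) - z n) atTop (𝓝 0) := by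
    have := (lim.const_mul (4 * r * K)).sqrt
    rw [mul_zero, Real.sqrt_zero] at this
    refine squeeze_zero_norm (fun n => Real.le_sqrt_of_sq_le ((c.lip _ _ r hr ((Gn.sum _
      fun j _ => (S.dom _ _ hγ (sd n j).d0).gn).smul _)).trans ?_)) this
    refine (mul_le_mul_of_nonneg_left ((Complex.re_le_norm _).trans (avg n (C := K)
      (ε := K * (1 / (n + 1))) (by positivity) (fun i => ?_) fun i j hij => ?_))
        (by positivity)).trans_eq (by ring)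
    · simpa only [div_self (xs_pos n i).ne', mul_one, bf] using hK _ _ (xs_one n i) (xs_pos n i)
    · rcases lt_or_gt_of_ne hij with k | k
      · rw [← bf, bf_conj S hγ (sd n i).d0 (sd n j).d0, RCLike.norm_conj]
        exact (hK _ _ (xs_one n i) (xs_pos n j)).trans (mul_le_mul_of_nonneg_left (xs_lt n k) K0)
      · exact (hK _ _ (xs_one n j) (xs_pos n i)).trans (mul_le_mul_of_nonneg_left (xs_lt n k) K0)
  have h2 : Tendsto u atTop (𝓝 0) := by
    set C := c0 * (∫ k, ‖G k‖ ^ 2 ∂mP) * (2 * Real.pi) * ∫ t, et t ^ 2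
    have C0 : 0 ≤ C := mul_nonneg (mul_nonneg (mul_nonneg h.nonneg (integral_nonneg fun _ =>
      sq_nonneg _)) Real.two_pi_pos.le) (integral_nonneg fun _ => sq_nonneg _)
    refine squeeze_zero_norm (fun n => ?_) (by simpa only [mul_zero] using lim.const_mul √C)
    have p : (0 : ℝ) < n + 1 := by positivity
    simp only [u, norm_smul, norm_inv, Complex.norm_real, Real.norm_of_nonneg p.le]
    rw [inv_mul_le_iff₀ p]
    refine (norm_sum_le _ _).trans ((Finset.sum_le_card_nsmul _ _ (√C * (1 / (n + 1)))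
      fun j _ => ?_).trans_eq (by simp))
    have x1 := xs_ge n j
    refine abs_le_of_sq_le_sq' ((La_le h hG _).trans ?_) (by positivity) |>.2
    rw [sq_dlt (pow_pos (xs_pos n j) 2), mul_left_comm, mul_pow, Real.sq_sqrt C0, mul_comm,
      one_div, inv_pow]
    gcongr
    linarith
  have h3 : ∀ n, La h hG (S1 (Ph n)) = u n - (6 : ℂ)⁻¹ • z n := fun n => by
    simp only [z, u, Tht_La h hG e (sd n _).1, der_ps (a_pos n _) (pow_pos (xs_pos n _) 2), Ph_S1,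
      map_smul, map_sum, map_sub, ← Finset.smul_sum, Finset.sum_sub_distrib, Complex.ofReal_inv]
    module
  have := (((c.Sk r).continuous.tendsto 0).comp h2).sub h2 |>.sub (h1.const_smul (6 : ℂ)⁻¹)
  rw [map_zero, smul_zero, sub_zero, sub_zero] at this
  refine this.congr fun n => ?_
  simp only [h3, Function.comp, map_sub, map_smul]
  module

end

end Vale.Agent.P352L.Z
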